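import Vale.Agent.P162.ThDefs2
import Vale.Agent.P162.ThFlat
import Vale.Agent.P162.Final

/-!
# P162, `Θ(log n)`: skeleton (exact statements, all `sorry`).  DO NOT IMPORT in modules.
Each module is its own file `Vale/Agent/P162/Th<NAME>.lean`, namespace `Vale.Agent.P162.Th`.
-/

open Finset Equiv
open scoped BigOperators RealInnerProductSpace

namespace Vale.Agent.P162.Th

/-! ## [PROB] ThProb.lean -/

open Classical in
theorem pr_le {d k : ℕ} (c x : Fin k → Q d) (hc : Function.Injective c) :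
    pr c x ≤ ∏ r : Fin d, (if (∀ i j, i ≠ j → fs x c r i = fs x c r j → c i r ≠ c j r) then
      (1 / 2 : ℝ) ^ (univ.image (fs x c r)).card else 0) := by
  sorry

/-- expectation of a function of the end positions -/
theorem pr_expect {d k : ℕ} (c : Fin k ↪ Q d) (F : (Fin k → Q d) → ℝ) :
    ∑ y : Fin k ↪ Q d, pr (c : Fin k → Q d) y * F y =
      (Fintype.card (Om d) : ℝ)⁻¹ * ∑ ω : Om d, F (fun i => upTo ω d (c i)) := by
  sorry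

theorem pr_sum_right {d k : ℕ} (c : Fin k ↪ Q d) :
    ∑ y : Fin k ↪ Q d, pr (c : Fin k → Q d) y = 1 := by
  sorry

theorem pr_sum_left {d k : ℕ} (x : Fin k ↪ Q d) :
    ∑ c : Fin k ↪ Q d, pr (c : Fin k → Q d) x = 1 := by
  sorry

/-- if the cards can go from `c` to `x` then two cards in the same switch of layer `r` are on
different sides -/
theorem proper_of_pr {d k : ℕ} (c x : Fin k → Q d) (hc : Function.Injective c)
    (h : pr c x ≠ 0) (r : Fin d) (i j : Fin k) (hij : i ≠ j) (hs : fs x c r i = fs x c r j) :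
    c i r ≠ c j r := by
  sorry

/-! ## [COLOR] ThColor.lean -/

open Classical in
theorem coloring {ι α β : Type} [Fintype ι] [DecidableEq α] [DecidableEq β] (f : ι → α)
    (g : ι → β) :
    (univ.filter (fun b : ι → Bool => (∀ i j, i ≠ j → f i = f j → b i ≠ b j) ∧
      (∀ i j, i ≠ j → g i = g j → b i ≠ b j))).card * 2 ^ Fintype.card ι ≤
      2 ^ ((univ.image f).card + (univ.image g).card + cyc f g) := by
  sorry

theorem cyc_le {ι α β : Type} [Fintype ι] [DecidableEq α] (f : ι → α) (g : ι → β) :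
    cyc f g ≤ Fintype.card ι - (univ.image f).card := by
  sorry

/-! ## [GEN] ThGen.lean -/

theorem genSum {d : ℕ} {B : Type} [Fintype B] (F : Fin d → (Fin d → B) → ℝ)
    (h0 : ∀ r a, 0 ≤ F r a)
    (hdep : ∀ r a a', (∀ s, r ≤ s → a s = a' s) → F r a = F r a')
    (hsum : ∀ r a, ∑ b : B, F r (Function.update a r b) ≤ 1) :
    ∑ a : Fin d → B, ∏ r, F r a ≤ 1 := by
  sorry

/-! ## [JENSEN] ThJensen.lean (uses PROB, COLOR, GEN) -/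

theorem U_sum {d k : ℕ} (x y : Fin k ↪ Q d) :
    ∑ c : Fin k ↪ Q d, (2 : ℝ) ^ (d * k) * (pr (c : Fin k → Q d) x * pr (c : Fin k → Q d) y) /
      (2 : ℝ) ^ (Cyc (x : Fin k → Q d) c y) ≤ 1 := by
  sorry

theorem jensen {d k : ℕ} (x y : Fin k ↪ Q d) {δ : ℝ} (hδ : 0 ≤ δ) :
    (Kk d k x y) ^ (1 + δ) * ((2 : ℝ) ^ (d * k)) ^ δ ≤ Lk δ d k x y := by
  sorry

/-! ## [WALK] ThWalk.lean -/

theorem closed_walk {α : Type} [Fintype α] [DecidableEq α] (K : Matrix α α ℝ)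
    (h0 : ∀ x y, 0 ≤ K x y) (q : ℕ) (hq : 2 ≤ q) :
    (K ^ q).trace ≤
      ∑ x, ∑ y, ((Matrix.of fun x y => (K x y) ^ ((q : ℝ) / ((q : ℝ) - 1))) ^ (q - 1)) x y := by
  sorry

/-! ## [ISO] ThIso.lean -/

theorem iso {d : ℕ} (ω : Om d) (r : ℕ) (T : Finset (Q d)) :
    ∑ s ∈ univ.filter (fun s : Fin d => (s : ℕ) < r),
      (((T ×ˢ T).filter (fun p : Q d × Q d => p.1 ≠ p.2 ∧
        sw s (upTo ω s p.1) = sw s (upTo ω s p.2))).card : ℝ) ≤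
      T.card * Real.logb 2 T.card := by
  sorry

/-! ## [LEADER] ThLeader.lean (uses ISO) -/

theorem exists_leader {d k : ℕ} (r : Fin d) (W : Finset (Fin d)) (hW : ∀ s ∈ W, s < r)
    (c : Fin k → Q d) (hc : Function.Injective c) (tgt : Fin k → Q d) (L : Finset (Fin k))
    (htgt : Set.InjOn tgt (L : Set (Fin k))) (ω : Om d) (P : Finset (Fin k)) (hP : P.Nonempty)
    (hPL : P ⊆ L) (hcl : ∀ i ∈ P, ∃ j ∈ P, upTo ω r (c i) = tgt j) :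
    ∃ j ∈ P, ∃ m : ℕ, m ≤ P.card ∧ Lead r c tgt L W ω j m ∧
      ∀ l, (hh r c tgt L ω)^[l] j ∈ P := by
  sorry

/-! ## [DECODE] ThDecode.lean -/

open Classical in
theorem decode {d k : ℕ} (r : Fin d) (W : Finset (Fin d)) (hW : ∀ s ∈ W, s < r)
    (c : Fin k → Q d) (hc : Function.Injective c) (tgt : Fin k → Q d) (L : Finset (Fin k))
    (hL : ∀ i ∈ L, c i r = true) (htgt : Set.InjOn tgt (L : Set (Fin k))) (ω₀ : Om d)
    (Λ : Finset (Fin k)) (hΛ : Λ ⊆ L) (m : Fin k → ℕ) :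
    (((Off (Sb r W) ω₀).filter (fun η => (∀ j ∈ Λ, Lead r c tgt L W η j (m j)) ∧
      ∀ j ∈ Λ, ∀ j' ∈ Λ, j ≠ j' → ∀ l < m j, ∀ l' < m j',
        (hh r c tgt L η)^[l] j ≠ (hh r c tgt L η)^[l'] j')).card : ℝ) *
      ∏ j ∈ Λ, (2 : ℝ) ^ (((W.card : ℝ) - Real.logb 2 (m j)) / 2) ≤ 2 ^ (Sb r W).card := by
  sorry

/-! ## [SL] ThSL.lean (uses LEADER, DECODE) -/

theorem SL {d k : ℕ} (r : Fin d) (W : Finset (Fin d)) (hW : ∀ s ∈ W, s < r) (u : ℕ)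
    (hu : 1 ≤ u) (hw : W.card = 8 * u)
    (c : Fin k → Q d) (hc : Function.Injective c) (tgt : Fin k → Q d) (L : Finset (Fin k))
    (hL : ∀ i ∈ L, c i r = true) (htgt : Set.InjOn tgt (L : Set (Fin k))) (ω₀ : Om d)
    (𝓟 : Om d → Finset (Finset (Fin k)))
    (h𝓟 : ∀ η, ∀ P ∈ 𝓟 η, P.Nonempty ∧ P ⊆ L ∧ ∀ i ∈ P, ∃ j ∈ P, upTo η r (c i) = tgt j)
    (hdis : ∀ η, ∀ P ∈ 𝓟 η, ∀ P' ∈ 𝓟 η, P ≠ P' → Disjoint P P') :
    ∑ η ∈ Off (Sb r W) ω₀, (2 : ℝ) ^ (u * (𝓟 η).card) ≤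
      2 ^ (Sb r W).card * Real.exp ((2 * u / 2 ^ u) * L.card) := by
  sorry

/-! ## [FULL] ThFull.lean (uses SL) -/

theorem SLcyc {d k : ℕ} (r : Fin d) (W : Finset (Fin d)) (hW : ∀ s ∈ W, s < r) (u : ℕ)
    (hu : 1 ≤ u) (hw : W.card = 8 * u) (x c : Fin k → Q d) (hc : Function.Injective c)
    (hp : ∀ i j, i ≠ j → fs x c r i = fs x c r j → c i r ≠ c j r) (ω₀ : Om d) :
    ∑ η ∈ Off (Sb r W) ω₀,
      (2 : ℝ) ^ (u * cyc (fs x c r) (fun i => sw r (upTo η r (c i)))) ≤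
      2 ^ (Sb r W).card * Real.exp ((2 * u / 2 ^ u) * (pp x c r : ℝ)) := by
  sorry

/-! ## [ML] ThML.lean (uses FULL, cyc_le) -/

theorem ML : ∃ Wb : ℝ, 0 ≤ Wb ∧ ∀ d : ℕ, ∃ wt : Fin d → ℝ, (∀ r, 0 ≤ wt r) ∧ ∑ r, wt r ≤ Wb ∧
    ∀ (k : ℕ) (x c : Fin k → Q d), Function.Injective c →
      (∀ r i j, i ≠ j → fs x c r i = fs x c r j → c i r ≠ c j r) →
      ∑ η : Om d, (2 : ℝ) ^ ((1 / 32 : ℝ) * (Cyc x c (fun i => upTo η d (c i)) : ℝ)) ≤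
        (Fintype.card (Om d) : ℝ) * Real.exp (∑ r, wt r * (pp x c r : ℝ)) := by
  sorry

/-! ## [PAIR] ThPair.lean -/

theorem pairCount {d : ℕ} (r : Fin d) (k : ℕ) (t : ℝ) (ht : 0 ≤ t) :
    ∑ z : Fin k ↪ Q d, (1 + t) ^ (k - (univ.image (fun i => sw r (z i))).card) ≤
      ((2 : ℝ) ^ d) ^ k * Real.exp (t * (k : ℝ) ^ 2 / 2 ^ d) := by
  sorry

/-! ## [STAR] ThStar.lean (uses PROB, JENSEN, WALK, ML, PAIR) -/

theorem star : ∃ C : ℝ, 0 ≤ C ∧ ∀ d k : ℕ,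
    ((Kk d k) ^ 128).trace ≤ Real.exp (C * (k : ℝ) ^ 2 / 2 ^ d) := by
  sorry

/-! ## [QB] ThQB.lean: basic facts on `Qz`, `Bk` -/

open DepthAux

section levels

variable {X : Type} [Fintype X] [DecidableEq X]

theorem Qz_symm (Z : Finset X) (v w : EuclideanSpace ℝ (Perm X)) :
    ⟪Qz Z v, w⟫ = ⟪v, Qz Z w⟫ := by
  sorry

theorem Qz_idem (Z : Finset X) (v : EuclideanSpace ℝ (Perm X)) : Qz Z (Qz Z v) = Qz Z v := by
  sorry

/-- `Z ⊆ Z'` : functions of `σ|_Z` are functions of `σ|_{Z'}` -/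
theorem Qz_sub {Z Z' : Finset X} (h : Z ⊆ Z') (v : EuclideanSpace ℝ (Perm X)) :
    Qz Z' (Qz Z v) = Qz Z v := by
  sorry

theorem Qz_sub' {Z Z' : Finset X} (h : Z ⊆ Z') (v : EuclideanSpace ℝ (Perm X)) :
    Qz Z (Qz Z' v) = Qz Z v := by
  sorry

theorem rt_Qz (h : Perm X) (Z : Finset X) (v : EuclideanSpace ℝ (Perm X)) :
    rt h (Qz Z v) = Qz (Z.map h.toEmbedding) (rt h v) := by
  sorry

theorem Qz_comm {T : EuclideanSpace ℝ (Perm X) →L[ℝ] EuclideanSpace ℝ (Perm X)}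
    (hT : ∀ (g : Perm X) v, T (rt g v) = rt g (T v)) (Z : Finset X)
    (v : EuclideanSpace ℝ (Perm X)) : Qz Z (T v) = T (Qz Z v) := by
  sorry

theorem rt_Bk (h : Perm X) (k : ℕ) (v : EuclideanSpace ℝ (Perm X)) :
    rt h (Bk X k v) = Bk X k (rt h v) := by
  sorry

theorem reg_Bk (h : Perm X) (k : ℕ) (v : EuclideanSpace ℝ (Perm X)) :
    regRep X h (Bk X k v) = Bk X k (regRep X h v) := by
  sorry

/-- the filtration of `Depth.lean` in terms of right averages -/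
theorem U_eq {k : ℕ} (hk : k ≤ Fintype.card X) :
    U X k = (powersetCard k (univ : Finset X)).sup
      (fun Z => LinearMap.range (Qz Z).toLinearMap) := by
  sorry

theorem Qz_mem_U {k : ℕ} {Z : Finset X} (hZ : Z.card ≤ k) (v : EuclideanSpace ℝ (Perm X)) :
    Qz Z v ∈ U X k := by
  sorry

theorem mem_U_orth {k : ℕ} (hk : k ≤ Fintype.card X) (v : EuclideanSpace ℝ (Perm X)) :
    v ∈ (U X k)ᗮ ↔ ∀ Z : Finset X, Z.card = k → Qz Z v = 0 := by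
  sorry

/-! ## [EXT] ThExt.lean -/

theorem ext_ge {E : Type*} [NormedAddCommGroup E] [InnerProductSpace ℝ E]
    [FiniteDimensional ℝ E] {ι : Type*} (T : E →ₗ[ℝ] E) (hT : T.IsSymmetric)
    (H : Submodule ℝ E) (hH : ∀ v ∈ H, T v ∈ H) (P : ι → E →ₗ[ℝ] E)
    (hP : ∀ i v, P i (T v) = T (P i v)) (h0 : ∀ v ∈ H, (∀ i, P i v = 0) → v = 0) (lam : ℝ)
    (h : ∀ v ∈ H, ∀ i, lam * ‖P i v‖ ^ 2 ≤ ⟪T (P i v), P i v⟫) :
    ∀ v ∈ H, lam * ‖v‖ ^ 2 ≤ ⟪T v, v⟫ := by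
  sorry

theorem ext_le {E : Type*} [NormedAddCommGroup E] [InnerProductSpace ℝ E]
    [FiniteDimensional ℝ E] {ι : Type*} (T : E →ₗ[ℝ] E) (hT : T.IsSymmetric)
    (H : Submodule ℝ E) (hH : ∀ v ∈ H, T v ∈ H) (P : ι → E →ₗ[ℝ] E)
    (hP : ∀ i v, P i (T v) = T (P i v)) (h0 : ∀ v ∈ H, (∀ i, P i v = 0) → v = 0) (lam : ℝ)
    (h : ∀ v ∈ H, ∀ i, ⟪T (P i v), P i v⟫ ≤ lam * ‖P i v‖ ^ 2) :
    ∀ v ∈ H, ⟪T v, v⟫ ≤ lam * ‖v‖ ^ 2 := by
  sorry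

/-! ## [E1] ThE1.lean (uses QB, EXT) -/

theorem E1 {k k' : ℕ} (h : k ≤ k') (h' : k' ≤ Fintype.card X) (v : EuclideanSpace ℝ (Perm X))
    (hv : v ∈ U X k) :
    ((k'.choose k : ℝ) / ((Fintype.card X).choose k : ℝ)) * ‖v‖ ^ 2 ≤ ⟪Bk X k' v, v⟫ := by
  sorry

/-! ## [E2] ThE2.lean (uses QB, EXT) -/

theorem E2 {k : ℕ} (hk : 3 * (k + 1) ≤ Fintype.card X) (v : EuclideanSpace ℝ (Perm X))
    (h1 : v ∈ U X (k + 1)) (h2 : v ∈ (U X k)ᗮ) :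
    ⟪Bk X (k + 1) v, v⟫ ≤ (2 / ((Fintype.card X).choose (k + 1) : ℝ)) * ‖v‖ ^ 2 := by
  sorry

/-! ## [E3] ThE3.lean -/

open Classical in
theorem E3 {k : ℕ} (hk : k ≤ Fintype.card X) (v : EuclideanSpace ℝ (Perm X)) :
    ((Fintype.card X).factorial : ℝ) * ⟪Bk X k v, v⟫ =
      ∑ z : Fin k ↪ X, ∑ y : Fin k ↪ X,
        (∑ g ∈ univ.filter (fun g : Perm X => ∀ i, g (z i) = y i), v g) ^ 2 := by
  sorry

/-! ## [G] ThG.lean (uses QB, EXT, E1, E2) -/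

theorem Pk_symm (k : ℕ) (v w : EuclideanSpace ℝ (Perm X)) : ⟪Pk X k v, w⟫ = ⟪v, Pk X k w⟫ := by
  sorry

theorem Pk_comm {k : ℕ} {T : EuclideanSpace ℝ (Perm X) →L[ℝ] EuclideanSpace ℝ (Perm X)}
    (hT : ∀ (g : Perm X) v, T (rt g v) = rt g (T v))
    (v : EuclideanSpace ℝ (Perm X)) : Pk X k (T v) = T (Pk X k v) := by
  sorry

theorem G2 {k k' : ℕ} (h : k + 1 ≤ k') (h' : k' ≤ Fintype.card X)
    (v : EuclideanSpace ℝ (Perm X)) :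
    ‖Pk X k v‖ ^ 2 ≤ (((Fintype.card X).choose (k + 1) : ℝ) / (k'.choose (k + 1) : ℝ)) *
      ⟪Bk X k' v, v⟫ := by
  sorry

theorem G1 {k : ℕ} (hk : 3 * (k + 1) ≤ Fintype.card X)
    (M : EuclideanSpace ℝ (Perm X) →L[ℝ] EuclideanSpace ℝ (Perm X))
    (hM : ∀ (g : Perm X) v, M (rt g v) = rt g (M v)) (hs : ∀ v w, ⟪M v, w⟫ = ⟪v, M w⟫)
    (w : EuclideanSpace ℝ (Perm X)) (h1 : w ∈ U X (k + 1)) (h2 : w ∈ (U X k)ᗮ) :
    ‖M w‖ ^ 2 ≤ (2 / ((Fintype.card X).choose (k + 1) : ℝ)) *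
      ((Fintype.card X).factorial * ‖Pk X k (M (dl 1))‖ ^ 2) * ‖w‖ ^ 2 := by
  sorry

/-! ## [KER] ThKer.lean (uses E3) -/

/-- `K = R* R`, `R` the averaging operator of `f` -/
theorem trace_ker {κ : Type} [Fintype κ] [Nonempty κ] (f : κ → Perm X) (k m : ℕ)
    (hk : k ≤ Fintype.card X) :
    ((Fintype.card X).factorial : ℝ) *
      ⟪Bk X k (((avg (regRep X) (fun a : κ × κ => (f a.1)⁻¹ * f a.2)) ^ m) (dl 1)),
        ((avg (regRep X) (fun a : κ × κ => (f a.1)⁻¹ * f a.2)) ^ m) (dl 1)⟫ =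
      ((kerM k (fun a : κ × κ => (f a.1)⁻¹ * f a.2)) ^ (2 * m)).trace := by
  sorry

end levels

/-! ## [SCHATTEN] ThSchatten.lean -/

theorem schatten {ι : Type} [Fintype ι] [DecidableEq ι] (A : Matrix ι ι ℝ) (s : ℕ) :
    ((A ^ (2 ^ s)).transpose * A ^ (2 ^ s)).trace ≤ ((A.transpose * A) ^ (2 ^ s)).trace := by
  sorry

/-! ## [SCOP] ThScop.lean (uses SCHATTEN, Pk facts) -/

theorem schatten_level {X : Type} [Fintype X] [DecidableEq X] {κ : Type} [Fintype κ]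
    [Nonempty κ] (f : κ → Perm X) (k s : ℕ) :
    ‖(avg (regRep X) f ^ (2 ^ (s + 1))) (Pk X k (dl 1))‖ ^ 2 ≤
      ‖((avg (regRep X) (fun a : κ × κ => (f a.1)⁻¹ * f a.2)) ^ (2 ^ s)) (Pk X k (dl 1))‖ ^ 2 := by
  sorry

/-! ## [CALC] ThCalc.lean -/

theorem final_calc (C : ℝ) (hC : 0 ≤ C) : ∃ t₁ n₀ : ℕ, ∀ n : ℕ, n₀ ≤ n → ∀ a : ℕ → ℝ,
    (∀ k k' : ℕ, 1 ≤ k → 3 * k ≤ n → k ≤ k' → k' ≤ n →
      a k ≤ ((n.choose k : ℝ) / (k'.choose k : ℝ)) * Real.exp (C * (k' : ℝ) ^ 2 / n) *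
        ((2 / (k'.choose k : ℝ)) * Real.exp (C * (k' : ℝ) ^ 2 / n)) ^ 3) →
    (∀ k : ℕ, 1 ≤ k → k ≤ n → a k ≤ Real.exp (C * n) * Real.exp (-(t₁ * k / 80))) →
    ∑ k ∈ Finset.Icc 1 n, a k ≤ 1 / 4 := by
  sorry

/-! ## [ABS] ThAbs.lean (uses G, KER, SCOP, CALC, Depth) -/

theorem final_abs (C : ℝ) (hC : 0 ≤ C) : ∃ t₀ n₀ : ℕ, ∀ (X : Type) [Fintype X] [DecidableEq X],
    n₀ ≤ Fintype.card X → ∀ (κ : Type) [Fintype κ] [Nonempty κ] (f : κ → Perm X) (β : ℝ),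
    1 / 40 ≤ β → Good f β →
    (∀ k ≤ Fintype.card X, ((kerM k (fun a : κ × κ => (f a.1)⁻¹ * f a.2)) ^ 128).trace ≤
      Real.exp (C * (k : ℝ) ^ 2 / Fintype.card X)) →
    ((Fintype.card X).factorial : ℝ) *
      ‖((avg (regRep X) f) ^ t₀) (EuclideanSpace.single (1 : Perm X) (1 : ℝ) -
        (WithLp.toLp 2 fun _ => (1 : ℝ) / (Fintype.card X).factorial))‖ ^ 2 ≤ 1 / 4 := by
  sorry

/-! ## [FLAT] ThLink.lean : the flat pass and the pass of helper61 -/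

/-- one pass (`d` shuffles) is the inverse of the flat pass, up to relabelling the positions -/
theorem flat_link (d : ℕ) : ∃ e : Pos d ≃ Q d,
    ∀ (V : Type) [NormedAddCommGroup V] [InnerProductSpace ℝ V]
      (ρ : Perm (Q d) →* (V →L[ℝ] V)),
      avg (ρ.comp (e.permCongrHom.toMonoidHom)) (pass d) =
        avg ρ (fun ω : Om d => (upP ω)⁻¹) := by
  sorry

/-- the kernel of `K = R* R` in the flat model -/
theorem ker_flat (d k : ℕ) :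
    kerM k (fun a : Om d × Om d => ((upP a.1)⁻¹)⁻¹ * (upP a.2)⁻¹) = Kk d k := by
  sorry

/-- invariance of the trace under relabelling -/
theorem ker_transport {X Y : Type} [Fintype X] [DecidableEq X] [Fintype Y] [DecidableEq Y]
    (e : X ≃ Y) {κ : Type} [Fintype κ] (f : κ → Perm X) (k m : ℕ) :
    ((kerM k (fun a : κ × κ => (e.permCongrHom (f a.1))⁻¹ * e.permCongrHom (f a.2))) ^ m).trace =
      ((kerM k (fun a : κ × κ => (f a.1)⁻¹ * f a.2)) ^ m).trace := by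
  sorry

/-! ## [LOWER] ThLower.lean -/

theorem lower (d t : ℕ) (h : tvDist (2 ^ d) t ≤ 1 / 4) : d + 1 ≤ 2 * t := by
  sorry

/-! ## [MAIN] Results/P162/LogTheta.lean -/

theorem main : ∃ C : ℕ, ∀ d : ℕ,
    d + 1 ≤ 2 * tmix (2 ^ d) ∧ tmix (2 ^ d) ≤ C * (d + 1) ∧
      ∀ t : ℕ, C * (d + 1) ≤ t → tvDist (2 ^ d) t ≤ 1 / 4 := by
  sorry

end Vale.Agent.P162.Th
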